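import Mathlib

namespace Vale.Agent.Results.P238.SmallCubes

open MeasureTheory


/-- One unit-cost edit operation on binary words: insertion, deletion or substitution of a symbol. -/
inductive Step : List Bool → List Bool → Prop
  | ins (u v : List Bool) (a : Bool) : Step (u ++ v) (u ++ a :: v)
  | del (u v : List Bool) (a : Bool) : Step (u ++ a :: v) (u ++ v)
  | sub (u v : List Bool) (a b : Bool) : Step (u ++ a :: v) (u ++ b :: v)

/-- `Reach k x y`: the word `x` is transformed into `y` by a sequence of exactly `k` operations. -/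
inductive Reach : ℕ → List Bool → List Bool → Prop
  | refl (x : List Bool) : Reach 0 x x
  | tail {k : ℕ} {x y z : List Bool} : Reach k x y → Step y z → Reach (k + 1) x z

/-- Edit distance: least number of operations transforming `x` into `y`. -/
noncomputable def ED (x y : List Bool) : ℕ := sInf {k | Reach k x y}

/-- The real Banach space of absolutely summable sequences. -/
abbrev L1 : Type := lp (fun _ : ℕ => ℝ) 1

/-- Distortion of a map into `L1` with respect to `ρ`:
`(max_{x ≠ y} ‖f x - f y‖ / ρ x y) * (max_{x ≠ y} ρ x y / ‖f x - f y‖)`. -/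
noncomputable def distortion {X : Type} (ρ : X → X → ℝ) (f : X → L1) : ℝ :=
  (⨆ p : {p : X × X // p.1 ≠ p.2}, ‖f p.1.1 - f p.1.2‖ / ρ p.1.1 p.1.2) *
  (⨆ p : {p : X × X // p.1 ≠ p.2}, ρ p.1.1 p.1.2 / ‖f p.1.1 - f p.1.2‖)

/-- `c1 ρ`: infimum of the distortion over all injective maps into `L1`. -/
noncomputable def c1 {X : Type} (ρ : X → X → ℝ) : ℝ :=
  ⨅ f : {f : X → L1 // Function.Injective f}, distortion ρ f

/-- Edit distance on the binary words of length `n`. -/
noncomputable def cubeED (n : ℕ) (x y : List.Vector Bool n) : ℝ := (ED x.1 y.1 : ℝ)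

/-- one row of the Wagner-Fischer recursion -/
def edRow (x : Bool) (prev : List Bool → ℕ) (len : ℕ) : List Bool → ℕ
  | [] => len
  | y :: ys => min (min (prev (y :: ys) + 1) (edRow x prev len ys + 1))
      (prev ys + if x = y then 0 else 1)

/-- computable edit distance -/
def ed : List Bool → List Bool → ℕ
  | [] => List.length
  | x :: xs => edRow x (ed xs) (xs.length + 1)

theorem ed_nil_left (ys : List Bool) : ed [] ys = ys.length := rfl

theorem ed_nil_right (xs : List Bool) : ed xs [] = xs.length := by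
  cases xs <;> rfl

theorem ed_cons_cons (x y : Bool) (xs ys : List Bool) :
    ed (x :: xs) (y :: ys) = min (min (ed xs (y :: ys) + 1) (ed (x :: xs) ys + 1))
      (ed xs ys + if x = y then 0 else 1) := rfl

theorem ed_cons_left_le (d : Bool) (xs v : List Bool) : ed (d :: xs) v ≤ ed xs v + 1 := by
  cases v with
  | nil => simp [ed_nil_right]
  | cons y ys => rw [ed_cons_cons]; exact le_trans (min_le_left _ _) (min_le_left _ _)

theorem ed_cons_right_le (a : Bool) (x v : List Bool) : ed x (a :: v) ≤ ed x v + 1 := by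
  cases x with
  | nil => simp [ed_nil_left]
  | cons d xs => rw [ed_cons_cons]; exact le_trans (min_le_left _ _) (min_le_right _ _)

theorem ed_le_cons_right (a : Bool) (x v : List Bool) : ed x v ≤ ed x (a :: v) + 1 := by
  induction x with
  | nil => simp only [ed_nil_left, List.length_cons]; omega
  | cons d xs ih =>
    rw [ed_cons_cons]
    have h1 := ed_cons_left_le d xs v
    rcases min_choice (min (ed xs (a :: v) + 1) (ed (d :: xs) v + 1)) (ed xs v + if d = a then 0 else 1) with h | h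
    · rcases min_choice (ed xs (a :: v) + 1) (ed (d :: xs) v + 1) with h' | h'
      · rw [h, h']; omega
      · rw [h, h']; omega
    · rw [h]; omega

theorem ed_le_cons_left (d : Bool) (xs v : List Bool) : ed xs v ≤ ed (d :: xs) v + 1 := by
  induction v with
  | nil => simp only [ed_nil_right, List.length_cons]; omega
  | cons y ys ih =>
    rw [ed_cons_cons]
    have h1 := ed_cons_right_le y xs ys
    rcases min_choice (min (ed xs (y :: ys) + 1) (ed (d :: xs) ys + 1)) (ed xs ys + if d = y then 0 else 1) with h | h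
    · rcases min_choice (ed xs (y :: ys) + 1) (ed (d :: xs) ys + 1) with h' | h'
      · rw [h, h']; omega
      · rw [h, h']; omega
    · rw [h]; omega

theorem ed_cons_same (a : Bool) (x y : List Bool) : ed (a :: x) (a :: y) = ed x y := by
  rw [ed_cons_cons]
  have h1 := ed_le_cons_right a x y
  have h2 := ed_le_cons_left a x y
  simp only [if_true, add_zero]
  omega

theorem ed_sub_le (a b : Bool) (x v : List Bool) : ed x (b :: v) ≤ ed x (a :: v) + 1 := by
  induction x with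
  | nil => simp [ed_nil_left]
  | cons d xs ih =>
    rw [ed_cons_cons, ed_cons_cons]
    have e1 : (if d = b then 0 else 1) ≤ 1 := by split_ifs <;> omega
    omega

/-- Lipschitz transfer under a common first letter. -/
theorem ed_lift (c : Bool) (y z : List Bool) (h : ∀ x, ed x z ≤ ed x y + 1) :
    ∀ x, ed x (c :: z) ≤ ed x (c :: y) + 1 := by
  intro x
  induction x with
  | nil => have := h []; simp only [ed_nil_left] at this ⊢; simp only [List.length_cons]; omega
  | cons d xs ih =>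
    rw [ed_cons_cons, ed_cons_cons]
    have h1 := h (d :: xs)
    have h2 := h xs
    omega

theorem ed_lift_append (u y z : List Bool) (h : ∀ x, ed x z ≤ ed x y + 1) :
    ∀ x, ed x (u ++ z) ≤ ed x (u ++ y) + 1 := by
  induction u with
  | nil => simpa using h
  | cons c u ih => exact ed_lift c _ _ ih

theorem ed_step {y z : List Bool} (h : Step y z) (x : List Bool) : ed x z ≤ ed x y + 1 := by
  cases h with
  | ins u v a => exact ed_lift_append u v (a :: v) (fun x => ed_cons_right_le a x v) x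
  | del u v a => exact ed_lift_append u (a :: v) v (fun x => ed_le_cons_right a x v) x
  | sub u v a b => exact ed_lift_append u (a :: v) (b :: v) (fun x => ed_sub_le a b x v) x

theorem ed_self (x : List Bool) : ed x x = 0 := by
  induction x with
  | nil => rfl
  | cons a x ih => rw [ed_cons_same, ih]

theorem ed_le_of_reach {k : ℕ} {x y : List Bool} (h : Reach k x y) : ed x y ≤ k := by
  induction h with
  | refl x => simp [ed_self]
  | @tail k x y z _ hs ih => have := ed_step hs x; omega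

theorem Step.cons (c : Bool) {y z : List Bool} (h : Step y z) : Step (c :: y) (c :: z) := by
  cases h with
  | ins u v a => exact Step.ins (c :: u) v a
  | del u v a => exact Step.del (c :: u) v a
  | sub u v a b => exact Step.sub (c :: u) v a b

theorem Reach.cons (c : Bool) {k : ℕ} {x y : List Bool} (h : Reach k x y) :
    Reach k (c :: x) (c :: y) := by
  induction h with
  | refl x => exact Reach.refl _
  | tail _ hs ih => exact Reach.tail ih (hs.cons c)

theorem Reach.head {k : ℕ} {x y z : List Bool} (hs : Step x y) (h : Reach k y z) :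
    Reach (k + 1) x z := by
  induction h with
  | refl y => exact Reach.tail (Reach.refl _) hs
  | tail _ hs' ih => exact Reach.tail (ih hs) hs'

theorem reach_nil_left (ys : List Bool) : Reach ys.length [] ys := by
  induction ys with
  | nil => exact Reach.refl _
  | cons y ys ih => exact Reach.head (Step.ins [] [] y) (ih.cons y)

theorem reach_nil_right (xs : List Bool) : Reach xs.length xs [] := by
  induction xs with
  | nil => exact Reach.refl _
  | cons x xs ih => exact Reach.head (Step.del [] xs x) ih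

theorem reach_ed (x y : List Bool) : Reach (ed x y) x y := by
  induction x generalizing y with
  | nil => exact reach_nil_left y
  | cons d xs ihx =>
    induction y with
    | nil => rw [ed_nil_right]; exact reach_nil_right _
    | cons c ys ihy =>
      rw [ed_cons_cons]
      rcases min_choice (min (ed xs (c :: ys) + 1) (ed (d :: xs) ys + 1)) (ed xs ys + if d = c then 0 else 1) with h | h
      · rcases min_choice (ed xs (c :: ys) + 1) (ed (d :: xs) ys + 1) with h' | h'
        · rw [h, h']; exact Reach.head (Step.del [] xs d) (ihx _)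
        · rw [h, h']; exact Reach.tail ihy (Step.ins [] ys c)
      · rw [h]
        by_cases hdc : d = c
        · subst hdc; simpa using (ihx ys).cons d
        · simp only [hdc, if_false]
          exact Reach.head (Step.sub [] xs d c) ((ihx ys).cons c)

theorem ED_eq_ed (x y : List Bool) : ED x y = ed x y := by
  apply le_antisymm
  · exact Nat.sInf_le (reach_ed x y)
  · exact le_csInf ⟨_, reach_ed x y⟩ (fun k hk => ed_le_of_reach hk)

/-- cut indicator at level `s` -/
noncomputable def lvl (a b s : ℝ) : ℝ := if decide (s < a) = decide (s < b) then 0 else 1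

theorem lvl_eq_indicator (a b : ℝ) :
    lvl a b = Set.indicator (Set.Ico (min a b) (max a b)) (fun _ => (1 : ℝ)) := by
  funext s
  unfold lvl
  by_cases h1 : s < a <;> by_cases h2 : s < b <;>
    simp [Set.indicator, h1, h2, not_lt.mp]

theorem lvl_integrable (a b : ℝ) : Integrable (lvl a b) := by
  rw [lvl_eq_indicator]
  exact (integrableOn_const (by simp)).integrable_indicator measurableSet_Ico

theorem lvl_integral (a b : ℝ) : ∫ s, lvl a b s = |a - b| := by
  rw [lvl_eq_indicator, integral_indicator_const _ measurableSet_Ico]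
  simp [Measure.real, Real.volume_Ico, max_sub_min_eq_abs, abs_sub_comm]

theorem line_ineq {W : Type} [Fintype W] (u v : W → W → ℝ)
    (h : ∀ S : W → Bool, ∑ i, ∑ j, u i j * (if S i = S j then 0 else 1)
      ≤ ∑ i, ∑ j, v i j * (if S i = S j then 0 else 1)) (t : W → ℝ) :
    ∑ i, ∑ j, u i j * |t i - t j| ≤ ∑ i, ∑ j, v i j * |t i - t j| := by
  have key : ∀ w : W → W → ℝ, ∑ i, ∑ j, w i j * |t i - t j|
      = ∫ s, ∑ i, ∑ j, w i j * lvl (t i) (t j) s := by
    intro w
    rw [integral_finsetSum _ (fun i _ => integrable_finsetSum _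
      (fun j _ => (lvl_integrable _ _).const_mul _))]
    refine Finset.sum_congr rfl fun i _ => ?_
    rw [integral_finsetSum _ (fun j _ => (lvl_integrable _ _).const_mul _)]
    refine Finset.sum_congr rfl fun j _ => ?_
    rw [integral_const_mul, lvl_integral]
  rw [key u, key v]
  apply integral_mono
  · exact integrable_finsetSum _ (fun i _ => integrable_finsetSum _
      (fun j _ => (lvl_integrable _ _).const_mul _))
  · exact integrable_finsetSum _ (fun i _ => integrable_finsetSum _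
      (fun j _ => (lvl_integrable _ _).const_mul _))
  · intro s
    exact h (fun i => decide (s < t i))

theorem l1_norm (g : L1) : ‖g‖ = ∑' k, |g k| := by
  have := lp.norm_eq_tsum_rpow (p := 1) (by simp) g
  simpa using this

theorem l1_summable (g : L1) : Summable fun k => |g k| := by
  have := (lp.memℓp g).summable (by simp)
  simpa using this

theorem l1_ineq {W : Type} [Fintype W] (u v : W → W → ℝ)
    (h : ∀ S : W → Bool, ∑ i, ∑ j, u i j * (if S i = S j then 0 else 1)
      ≤ ∑ i, ∑ j, v i j * (if S i = S j then 0 else 1)) (g : W → L1) :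
    ∑ i, ∑ j, u i j * ‖g i - g j‖ ≤ ∑ i, ∑ j, v i j * ‖g i - g j‖ := by
  have hs : ∀ (w : W → W → ℝ) (i j : W), Summable fun k => w i j * |g i k - g j k| := by
    intro w i j
    have := (l1_summable (g i - g j)).mul_left (w i j)
    simpa using this
  have key : ∀ w : W → W → ℝ, ∑ i, ∑ j, w i j * ‖g i - g j‖
      = ∑' k, ∑ i, ∑ j, w i j * |g i k - g j k| := by
    intro w
    rw [Summable.tsum_finsetSum (fun i _ => summable_sum (fun j _ => hs w i j))]
    refine Finset.sum_congr rfl fun i _ => ?_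
    rw [Summable.tsum_finsetSum (fun j _ => hs w i j)]
    refine Finset.sum_congr rfl fun j _ => ?_
    rw [tsum_mul_left, l1_norm]
    simp
  rw [key u, key v]
  apply Summable.tsum_le_tsum
  · intro k
    exact line_ineq u v h (fun i => g i k)
  · exact summable_sum (fun i _ => summable_sum (fun j _ => hs u i j))
  · exact summable_sum (fun i _ => summable_sum (fun j _ => hs v i j))

theorem distortion_nonneg {X : Type} (ρ : X → X → ℝ) (hρ : ∀ x y, 0 ≤ ρ x y) (f : X → L1) :
    0 ≤ distortion ρ f := by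
  unfold distortion
  apply mul_nonneg
  · exact Real.iSup_nonneg fun p => div_nonneg (norm_nonneg _) (hρ _ _)
  · exact Real.iSup_nonneg fun p => div_nonneg (hρ _ _) (norm_nonneg _)

theorem distortion_lower {X : Type} [Finite X] (ρ : X → X → ℝ)
    (hρ : ∀ x y, x ≠ y → 0 < ρ x y) (hρ0 : ∀ x, ρ x x = 0)
    {W : Type} [Fintype W] (P : W → X) (u v : W → W → ℝ)
    (hu : ∀ i j, 0 ≤ u i j) (hv : ∀ i j, 0 ≤ v i j)
    (h : ∀ S : W → Bool, ∑ i, ∑ j, u i j * (if S i = S j then 0 else 1)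
      ≤ ∑ i, ∑ j, v i j * (if S i = S j then 0 else 1))
    (f : X → L1) (hf : Function.Injective f) :
    ∑ i, ∑ j, u i j * ρ (P i) (P j) ≤ distortion ρ f * ∑ i, ∑ j, v i j * ρ (P i) (P j) := by
  set A : ℝ := ⨆ p : {p : X × X // p.1 ≠ p.2}, ‖f p.1.1 - f p.1.2‖ / ρ p.1.1 p.1.2 with hA
  set B : ℝ := ⨆ p : {p : X × X // p.1 ≠ p.2}, ρ p.1.1 p.1.2 / ‖f p.1.1 - f p.1.2‖ with hB
  have hρn : ∀ x y, 0 ≤ ρ x y := by
    intro x y
    by_cases hxy : x = y
    · subst hxy; rw [hρ0]
    · exact (hρ x y hxy).le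
  have hA0 : 0 ≤ A := Real.iSup_nonneg fun p => div_nonneg (norm_nonneg _) (hρn _ _)
  have hB0 : 0 ≤ B := Real.iSup_nonneg fun p => div_nonneg (hρn _ _) (norm_nonneg _)
  have hAle : ∀ x y, ‖f x - f y‖ ≤ A * ρ x y := by
    intro x y
    by_cases hxy : x = y
    · subst hxy; simp [hρ0]
    · have := le_ciSup (f := fun p : {p : X × X // p.1 ≠ p.2} =>
        ‖f p.1.1 - f p.1.2‖ / ρ p.1.1 p.1.2) (Set.finite_range _).bddAbove ⟨(x, y), hxy⟩
      exact (div_le_iff₀ (hρ x y hxy)).1 this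
  have hBle : ∀ x y, ρ x y ≤ B * ‖f x - f y‖ := by
    intro x y
    by_cases hxy : x = y
    · subst hxy; simp [hρ0]
    · have := le_ciSup (f := fun p : {p : X × X // p.1 ≠ p.2} =>
        ρ p.1.1 p.1.2 / ‖f p.1.1 - f p.1.2‖) (Set.finite_range _).bddAbove ⟨(x, y), hxy⟩
      have hpos : 0 < ‖f x - f y‖ := norm_pos_iff.2 (sub_ne_zero.2 (fun e => hxy (hf e)))
      exact (div_le_iff₀ hpos).1 this
  have h1 : ∑ i, ∑ j, u i j * ρ (P i) (P j) ≤ B * ∑ i, ∑ j, u i j * ‖f (P i) - f (P j)‖ := by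
    rw [Finset.mul_sum]
    refine Finset.sum_le_sum fun i _ => ?_
    rw [Finset.mul_sum]
    refine Finset.sum_le_sum fun j _ => ?_
    calc u i j * ρ (P i) (P j) ≤ u i j * (B * ‖f (P i) - f (P j)‖) :=
          mul_le_mul_of_nonneg_left (hBle _ _) (hu i j)
      _ = B * (u i j * ‖f (P i) - f (P j)‖) := by ring
  have h2 := l1_ineq u v h (fun i => f (P i))
  have h3 : ∑ i, ∑ j, v i j * ‖f (P i) - f (P j)‖ ≤ A * ∑ i, ∑ j, v i j * ρ (P i) (P j) := by
    rw [Finset.mul_sum]
    refine Finset.sum_le_sum fun i _ => ?_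
    rw [Finset.mul_sum]
    refine Finset.sum_le_sum fun j _ => ?_
    calc v i j * ‖f (P i) - f (P j)‖ ≤ v i j * (A * ρ (P i) (P j)) :=
          mul_le_mul_of_nonneg_left (hAle _ _) (hv i j)
      _ = A * (v i j * ρ (P i) (P j)) := by ring
  calc ∑ i, ∑ j, u i j * ρ (P i) (P j) ≤ B * ∑ i, ∑ j, u i j * ‖f (P i) - f (P j)‖ := h1
    _ ≤ B * ∑ i, ∑ j, v i j * ‖f (P i) - f (P j)‖ := mul_le_mul_of_nonneg_left h2 hB0
    _ ≤ B * (A * ∑ i, ∑ j, v i j * ρ (P i) (P j)) := mul_le_mul_of_nonneg_left h3 hB0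
    _ = distortion ρ f * ∑ i, ∑ j, v i j * ρ (P i) (P j) := by
        unfold distortion; rw [← hA, ← hB]; ring

theorem exists_injective (X : Type) [Finite X] : Nonempty {f : X → L1 // Function.Injective f} := by
  classical
  obtain ⟨n, ⟨e⟩⟩ := Finite.exists_equiv_fin X
  refine ⟨⟨fun x => lp.single 1 ((e x : Fin n) : ℕ) (1 : ℝ), ?_⟩⟩
  intro x y hxy
  have h := congrArg (fun g : L1 => g ((e x : Fin n) : ℕ)) hxy
  simp only [lp.single_apply_self] at h
  by_contra hne
  have hne' : ((e x : Fin n) : ℕ) ≠ ((e y : Fin n) : ℕ) := by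
    intro h'
    exact hne (e.injective (Fin.ext h'))
  rw [lp.single_apply_ne _ _ _ hne'] at h
  exact one_ne_zero h

theorem c1_lower {X : Type} [Finite X] (ρ : X → X → ℝ)
    (hρ : ∀ x y, x ≠ y → 0 < ρ x y) (hρ0 : ∀ x, ρ x x = 0)
    {W : Type} [Fintype W] (P : W → X) (u v : W → W → ℝ)
    (hu : ∀ i j, 0 ≤ u i j) (hv : ∀ i j, 0 ≤ v i j)
    (h : ∀ S : W → Bool, ∑ i, ∑ j, u i j * (if S i = S j then 0 else 1)
      ≤ ∑ i, ∑ j, v i j * (if S i = S j then 0 else 1))
    (r : ℝ) (hpos : 0 < ∑ i, ∑ j, v i j * ρ (P i) (P j))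
    (hr : r * ∑ i, ∑ j, v i j * ρ (P i) (P j) ≤ ∑ i, ∑ j, u i j * ρ (P i) (P j)) :
    r ≤ c1 ρ := by
  have := exists_injective X
  unfold c1
  refine le_ciInf fun f => ?_
  have := distortion_lower ρ hρ hρ0 P u v hu hv h f.1 f.2
  exact le_of_mul_le_mul_right (hr.trans this) hpos

theorem c1_upper {X : Type} (ρ : X → X → ℝ)
    (hρ : ∀ x y, x ≠ y → 0 < ρ x y) (hρ0 : ∀ x, ρ x x = 0) (f : X → L1) (a b : ℝ) (ha : 0 < a)
    (hb : 0 ≤ b)
    (h1 : ∀ x y, a * ρ x y ≤ ‖f x - f y‖) (h2 : ∀ x y, ‖f x - f y‖ ≤ b * ρ x y) :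
    c1 ρ ≤ b / a := by
  have hρn : ∀ x y, 0 ≤ ρ x y := by
    intro x y
    by_cases hxy : x = y
    · subst hxy; rw [hρ0]
    · exact (hρ x y hxy).le
  have hpos : ∀ x y, x ≠ y → 0 < ‖f x - f y‖ := fun x y hxy =>
    lt_of_lt_of_le (mul_pos ha (hρ x y hxy)) (h1 x y)
  have hf : Function.Injective f := by
    intro x y hxy
    by_contra hne
    have := hpos x y hne
    rw [hxy, sub_self, norm_zero] at this
    exact lt_irrefl _ this
  have hbd : BddBelow (Set.range fun f : {f : X → L1 // Function.Injective f} =>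
      distortion ρ f.1) := ⟨0, by rintro _ ⟨g, rfl⟩; exact distortion_nonneg ρ hρn g.1⟩
  have hle : c1 ρ ≤ distortion ρ f := ciInf_le hbd ⟨f, hf⟩
  refine hle.trans ?_
  unfold distortion
  have hA : (⨆ p : {p : X × X // p.1 ≠ p.2}, ‖f p.1.1 - f p.1.2‖ / ρ p.1.1 p.1.2) ≤ b :=
    Real.iSup_le (fun p => (div_le_iff₀ (hρ _ _ p.2)).2 (h2 _ _)) hb
  have hB : (⨆ p : {p : X × X // p.1 ≠ p.2}, ρ p.1.1 p.1.2 / ‖f p.1.1 - f p.1.2‖) ≤ 1 / a := by
    refine Real.iSup_le (fun p => ?_) (by positivity)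
    rw [div_le_div_iff₀ (hpos _ _ p.2) ha]
    have := h1 p.1.1 p.1.2
    linarith
  have hB0 : 0 ≤ (⨆ p : {p : X × X // p.1 ≠ p.2}, ρ p.1.1 p.1.2 / ‖f p.1.1 - f p.1.2‖) :=
    Real.iSup_nonneg fun p => div_nonneg (hρn _ _) (norm_nonneg _)
  calc _ ≤ b * (1 / a) := mul_le_mul hA hB hB0 hb
    _ = b / a := by ring

/-- the finite-dimensional cut embedding with integer weights -/
noncomputable def cutEmb {X : Type} (k : ℕ) (w : ℕ → ℕ) (mem : ℕ → X → Bool) (x : X) : L1 :=
  ∑ i ∈ Finset.range k, lp.single 1 i (if mem i x then (w i : ℝ) else 0)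

theorem cutEmb_dist {X : Type} (k : ℕ) (w : ℕ → ℕ) (mem : ℕ → X → Bool) (x y : X) :
    ‖cutEmb k w mem x - cutEmb k w mem y‖
      = ((∑ i ∈ Finset.range k, if mem i x = mem i y then 0 else w i : ℕ) : ℝ) := by
  unfold cutEmb
  rw [← Finset.sum_sub_distrib]
  have e : ∀ i ∈ Finset.range k,
      (lp.single 1 i (if mem i x then (w i : ℝ) else 0) : L1)
        - lp.single 1 i (if mem i y then (w i : ℝ) else 0)
      = lp.single 1 i ((if mem i x then (w i : ℝ) else 0) - (if mem i y then (w i : ℝ) else 0)) := by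
    intro i _
    rw [lp.single_sub]
  rw [Finset.sum_congr rfl e]
  have := lp.norm_sum_single (p := 1) (E := fun _ : ℕ => ℝ) (by simp)
    (fun i => (if mem i x then (w i : ℝ) else 0) - (if mem i y then (w i : ℝ) else 0))
    (Finset.range k)
  simp only [ENNReal.toReal_one, Real.rpow_one] at this
  rw [this]
  push_cast
  refine Finset.sum_congr rfl fun i _ => ?_
  cases mem i x <;> cases mem i y <;> simp

theorem eq_of_ed_eq_zero {x y : List Bool} (h : ed x y = 0) : x = y := by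
  have hr := reach_ed x y
  rw [h] at hr
  cases hr
  rfl

theorem cubeED_eq (n : ℕ) (x y : List.Vector Bool n) : cubeED n x y = (ed x.1 y.1 : ℝ) := by
  unfold cubeED; rw [ED_eq_ed]

theorem cubeED_self (n : ℕ) (x : List.Vector Bool n) : cubeED n x x = 0 := by
  rw [cubeED_eq, ed_self]; simp

theorem cubeED_pos (n : ℕ) (x y : List.Vector Bool n) (h : x ≠ y) : 0 < cubeED n x y := by
  rw [cubeED_eq]
  have : ed x.1 y.1 ≠ 0 := fun h0 => h (Subtype.ext (eq_of_ed_eq_zero h0))
  exact_mod_cast Nat.pos_of_ne_zero this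

theorem c1_lower_nat {n : ℕ} (P : Fin 8 → List.Vector Bool n) (pts : Fin 8 → List Bool)
    (hP : ∀ i j, ed (P i).1 (P j).1 = ed (pts i) (pts j)) (u v : Fin 8 → Fin 8 → ℕ)
    (hcut : ∀ S : Fin 8 → Bool, (∑ i, ∑ j, if S i = S j then 0 else u i j)
      ≤ ∑ i, ∑ j, if S i = S j then 0 else v i j)
    (a b : ℕ) (hb : 0 < b) (hu : ∑ i, ∑ j, u i j * ed (pts i) (pts j) = a)
    (hv : ∑ i, ∑ j, v i j * ed (pts i) (pts j) = b) : (a : ℝ) / b ≤ c1 (cubeED n) := by
  have conv : ∀ w : Fin 8 → Fin 8 → ℕ, ∑ i, ∑ j, (w i j : ℝ) * cubeED n (P i) (P j)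
      = ((∑ i, ∑ j, w i j * ed (pts i) (pts j) : ℕ) : ℝ) := by
    intro w
    push_cast
    refine Finset.sum_congr rfl fun i _ => Finset.sum_congr rfl fun j _ => ?_
    rw [cubeED_eq, hP]
  have conv2 : ∀ (w : Fin 8 → Fin 8 → ℕ) (S : Fin 8 → Bool),
      ∑ i, ∑ j, (w i j : ℝ) * (if S i = S j then 0 else 1)
      = ((∑ i, ∑ j, if S i = S j then 0 else w i j : ℕ) : ℝ) := by
    intro w S
    push_cast
    refine Finset.sum_congr rfl fun i _ => Finset.sum_congr rfl fun j _ => ?_
    split_ifs <;> simp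
  have hb' : (0 : ℝ) < b := by exact_mod_cast hb
  apply c1_lower (cubeED n) (cubeED_pos n) (cubeED_self n) P (fun i j => (u i j : ℝ))
    (fun i j => (v i j : ℝ)) (fun i j => Nat.cast_nonneg _) (fun i j => Nat.cast_nonneg _)
  · intro S
    rw [conv2 u S, conv2 v S]
    exact_mod_cast hcut S
  · rw [conv v, hv]; exact hb'
  · rw [conv v, conv u, hv, hu]
    rw [div_mul_cancel₀ _ hb'.ne']

/-- binary code of a word, the first letter being the least significant bit -/
def code : List Bool → ℕ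
  | [] => 0
  | b :: l => (if b then 1 else 0) + 2 * code l

/-- cut distance given by bit masks `ms` (subsets of the cube) and weights `ws` -/
def dsum (k : ℕ) (ms ws : List ℕ) (x y : List Bool) : ℕ :=
  ∑ i ∈ Finset.range k,
    if (ms.getD i 0).testBit (code x) = (ms.getD i 0).testBit (code y) then 0 else ws.getD i 0

theorem c1_upper_nat {n : ℕ} (k : ℕ) (ms ws : List ℕ) (a b : ℕ) (ha : 0 < a)
    (h : ∀ x y : List.Vector Bool n, a * ed x.1 y.1 ≤ dsum k ms ws x.1 y.1 ∧
      dsum k ms ws x.1 y.1 ≤ b * ed x.1 y.1) : c1 (cubeED n) ≤ (b : ℝ) / a := by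
  apply c1_upper (cubeED n) (cubeED_pos n) (cubeED_self n)
    (cutEmb k (fun i => ws.getD i 0) (fun i x => (ms.getD i 0).testBit (code x.1)))
    a b (by exact_mod_cast ha) (Nat.cast_nonneg _)
  · intro x y
    rw [cutEmb_dist, cubeED_eq]
    exact_mod_cast (h x y).1
  · intro x y
    rw [cutEmb_dist, cubeED_eq]
    exact_mod_cast (h x y).2

def masks3 : List ℕ :=
  [10, 46, 80, 116, 138, 162, 170, 174, 176, 186, 200, 204, 208, 236, 240, 242, 244]
def weights3 : List ℕ := [1, 1, 1, 1, 3, 2, 18, 3, 2, 2, 4, 20, 3, 4, 18, 2, 3]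

def masks4 : List ℕ :=
  [170, 6922, 12078, 13066, 16178, 19708, 20684, 20696, 21760, 29940, 32906, 34954, 34986, 35466,
   35532, 35594, 36012, 41130, 43690, 43758, 43770, 44718, 44782, 44798, 44846, 45746, 45826,
   48946, 49288, 49352, 50336, 51400, 51404, 51918, 52398, 52428, 52460, 52464, 53004, 53376,
   53440, 53504, 55512, 56576, 58596, 60652, 60668, 61180, 61632, 61644, 61648, 61680, 61696,
   62032, 62208, 62416, 62512, 62704, 62720, 62896, 64220, 64752, 64756, 65268, 65280, 65328,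
   65348, 65360, 65392, 65396]
def weights4 : List ℕ :=
  [8, 8, 16, 8, 16, 16, 8, 8, 8, 16, 7, 16, 20, 28, 5, 2, 5, 8, 272, 20, 8, 28, 16, 7, 2, 56, 2, 2,
   19, 10, 8, 46, 14, 5, 5, 168, 14, 16, 56, 19, 10, 7, 16, 8, 16, 46, 10, 19, 46, 16, 14, 168, 16,
   5, 28, 5, 5, 14, 20, 5, 8, 46, 10, 19, 272, 28, 8, 20, 16, 7]

set_option maxRecDepth 100000 in
theorem check3 : ∀ a0 a1 a2 b0 b1 b2 : Bool,
    28 * ed [a0, a1, a2] [b0, b1, b2] ≤ dsum 17 masks3 weights3 [a0, a1, a2] [b0, b1, b2] ∧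
    dsum 17 masks3 weights3 [a0, a1, a2] [b0, b1, b2] ≤ 32 * ed [a0, a1, a2] [b0, b1, b2] := by
  decide

set_option maxRecDepth 100000 in
theorem check4 : ∀ a0 a1 a2 a3 b0 b1 b2 b3 : Bool,
    448 * ed [a0, a1, a2, a3] [b0, b1, b2, b3]
      ≤ dsum 70 masks4 weights4 [a0, a1, a2, a3] [b0, b1, b2, b3] ∧
    dsum 70 masks4 weights4 [a0, a1, a2, a3] [b0, b1, b2, b3]
      ≤ 560 * ed [a0, a1, a2, a3] [b0, b1, b2, b3] := by
  decide

def pts3 : Fin 8 → List Bool :=
  ![[false, false, false], [false, false, true], [false, true, false], [false, true, true],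
    [true, false, false], [true, false, true], [true, true, false], [true, true, true]]
def u3 : Fin 8 → Fin 8 → ℕ :=
  ![![0, 0, 0, 1, 0, 2, 1, 0], ![0, 0, 2, 0, 0, 0, 0, 1], ![0, 2, 0, 0, 2, 0, 0, 2],
    ![1, 0, 0, 0, 0, 2, 0, 0], ![0, 0, 2, 0, 0, 0, 0, 1], ![2, 0, 0, 2, 0, 0, 2, 0],
    ![1, 0, 0, 0, 0, 2, 0, 0], ![0, 1, 2, 0, 1, 0, 0, 0]]
def v3 : Fin 8 → Fin 8 → ℕ :=
  ![![0, 1, 2, 0, 1, 0, 0, 0], ![1, 0, 0, 2, 0, 2, 0, 0], ![2, 0, 0, 2, 0, 4, 2, 0],
    ![0, 2, 2, 0, 0, 0, 0, 1], ![1, 0, 0, 0, 0, 2, 2, 0], ![0, 2, 4, 0, 2, 0, 0, 2],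
    ![0, 0, 2, 0, 2, 0, 0, 1], ![0, 0, 0, 1, 0, 2, 1, 0]]

def pts4 : Fin 8 → List Bool :=
  ![[false, false, false, true], [false, false, true, true], [false, true, false, true],
    [false, true, true, true], [true, false, false, false], [true, false, true, false],
    [true, true, false, false], [true, true, true, false]]
def u4 : Fin 8 → Fin 8 → ℕ :=
  ![![0, 0, 0, 1, 0, 1, 0, 0], ![0, 0, 1, 0, 0, 0, 0, 0], ![0, 1, 0, 0, 1, 0, 0, 1],
    ![1, 0, 0, 0, 0, 1, 0, 0], ![0, 0, 1, 0, 0, 0, 0, 1], ![1, 0, 0, 1, 0, 0, 1, 0],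
    ![0, 0, 0, 0, 0, 1, 0, 0], ![0, 0, 1, 0, 1, 0, 0, 0]]
def v4 : Fin 8 → Fin 8 → ℕ :=
  ![![0, 1, 1, 0, 0, 0, 0, 0], ![1, 0, 0, 1, 0, 1, 0, 0], ![1, 0, 0, 1, 0, 2, 1, 0],
    ![0, 1, 1, 0, 0, 0, 0, 0], ![0, 0, 0, 0, 0, 1, 1, 0], ![0, 1, 2, 0, 1, 0, 0, 1],
    ![0, 0, 1, 0, 1, 0, 0, 1], ![0, 0, 0, 0, 0, 1, 1, 0]]

theorem bool_fun_eq (S : Fin 8 → Bool) : S = ![S 0, S 1, S 2, S 3, S 4, S 5, S 6, S 7] := by
  funext i; fin_cases i <;> rfl

set_option maxRecDepth 100000 in
theorem cut3 : ∀ s0 s1 s2 s3 s4 s5 s6 s7 : Bool,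
    (∑ i, ∑ j, if (![s0, s1, s2, s3, s4, s5, s6, s7] : Fin 8 → Bool) i
        = (![s0, s1, s2, s3, s4, s5, s6, s7] : Fin 8 → Bool) j then 0 else u3 i j)
    ≤ ∑ i, ∑ j, if (![s0, s1, s2, s3, s4, s5, s6, s7] : Fin 8 → Bool) i
        = (![s0, s1, s2, s3, s4, s5, s6, s7] : Fin 8 → Bool) j then 0 else v3 i j := by
  decide

set_option maxRecDepth 100000 in
theorem cut4 : ∀ s0 s1 s2 s3 s4 s5 s6 s7 : Bool,
    (∑ i, ∑ j, if (![s0, s1, s2, s3, s4, s5, s6, s7] : Fin 8 → Bool) i
        = (![s0, s1, s2, s3, s4, s5, s6, s7] : Fin 8 → Bool) j then 0 else u4 i j)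
    ≤ ∑ i, ∑ j, if (![s0, s1, s2, s3, s4, s5, s6, s7] : Fin 8 → Bool) i
        = (![s0, s1, s2, s3, s4, s5, s6, s7] : Fin 8 → Bool) j then 0 else v4 i j := by
  decide

theorem ed_pad (k : ℕ) (x y : List Bool) :
    ed (List.replicate k false ++ x) (List.replicate k false ++ y) = ed x y := by
  induction k with
  | zero => rfl
  | succ k ih => rw [List.replicate_succ, List.cons_append, List.cons_append, ed_cons_same, ih]

theorem pts3_length (i : Fin 8) : (pts3 i).length = 3 := by fin_cases i <;> rfl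
theorem pts4_length (i : Fin 8) : (pts4 i).length = 4 := by fin_cases i <;> rfl

theorem lower3 : (8 : ℝ) / 7 ≤ c1 (cubeED 3) := by
  have h := c1_lower_nat (n := 3) (fun i => ⟨pts3 i, pts3_length i⟩) pts3 (fun _ _ => rfl) u3 v3
    (fun S => by rw [bool_fun_eq S]; exact cut3 _ _ _ _ _ _ _ _) 64 56 (by norm_num)
    (by decide) (by decide)
  norm_num at h ⊢
  exact h

theorem lower4 (n : ℕ) (hn : 4 ≤ n) : (5 : ℝ) / 4 ≤ c1 (cubeED n) := by
  have h := c1_lower_nat (n := n)
    (fun i => ⟨List.replicate (n - 4) false ++ pts4 i, by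
      rw [List.length_append, List.length_replicate, pts4_length]; omega⟩) pts4
    (fun _ _ => ed_pad _ _ _) u4 v4
    (fun S => by rw [bool_fun_eq S]; exact cut4 _ _ _ _ _ _ _ _) 40 32 (by norm_num)
    (by decide) (by decide)
  norm_num at h ⊢
  exact h

theorem upper3 : c1 (cubeED 3) ≤ (8 : ℝ) / 7 := by
  have h := c1_upper_nat (n := 3) 17 masks3 weights3 28 32 (by norm_num) (by
    rintro ⟨x, hx⟩ ⟨y, hy⟩
    rcases x with _ | ⟨a0, _ | ⟨a1, _ | ⟨a2, _ | ⟨a3, x⟩⟩⟩⟩ <;> simp at hx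
    rcases y with _ | ⟨b0, _ | ⟨b1, _ | ⟨b2, _ | ⟨b3, y⟩⟩⟩⟩ <;> simp at hy
    exact check3 a0 a1 a2 b0 b1 b2)
  norm_num at h ⊢
  exact h

theorem upper4 : c1 (cubeED 4) ≤ (5 : ℝ) / 4 := by
  have h := c1_upper_nat (n := 4) 70 masks4 weights4 448 560 (by norm_num) (by
    rintro ⟨x, hx⟩ ⟨y, hy⟩
    rcases x with _ | ⟨a0, _ | ⟨a1, _ | ⟨a2, _ | ⟨a3, _ | ⟨a4, x⟩⟩⟩⟩⟩ <;> simp at hx
    rcases y with _ | ⟨b0, _ | ⟨b1, _ | ⟨b2, _ | ⟨b3, _ | ⟨b4, y⟩⟩⟩⟩⟩ <;> simp at hy
    exact check4 a0 a1 a2 a3 b0 b1 b2 b3)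
  norm_num at h ⊢
  exact h

/-- Exact `ℓ₁` distortion of edit distance on binary words of length 3 and 4, and the explicit
bound `5/4` for every length `n ≥ 4`. -/
theorem result :
    c1 (cubeED 3) = 8 / 7 ∧ c1 (cubeED 4) = 5 / 4 ∧ ∀ n : ℕ, 4 ≤ n → (5 : ℝ) / 4 ≤ c1 (cubeED n) :=
  ⟨le_antisymm upper3 lower3, le_antisymm upper4 (lower4 4 le_rfl), lower4⟩

end Vale.Agent.Results.P238.SmallCubes
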